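import Vale.Agent.H64.Petty.AlgLemmas

/-!
Generated file: the algebraic core.  `pat_k` evaluate determinants of cross products sharing a
vector; `alg5`, `alg6` are the identities / inequalities between the sum of minors of the cross
products and the square of the sum of minors.
-/

namespace Vale.Agent.H64

theorem pat_0 (x0 x1 x2 x3 : Fin 3 → ℝ) : |det3 (cr3 x0 x1) (cr3 x0 x2) (cr3 x0 x3)| = 0 := by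
  rw [show det3 (cr3 x0 x1) (cr3 x0 x2) (cr3 x0 x3) = 0 by
    simp only [det3, cr3_0, cr3_1, cr3_2]; ring, abs_zero]

theorem pat_1 (x0 x1 x2 : Fin 3 → ℝ) :
    |det3 (cr3 x0 x1) (cr3 x0 x2) (cr3 x1 x2)| = |det3 x0 x1 x2| * |det3 x0 x1 x2| := by
  rw [show det3 (cr3 x0 x1) (cr3 x0 x2) (cr3 x1 x2) = det3 x0 x1 x2 * (det3 x0 x1 x2) by
    simp only [det3, cr3_0, cr3_1, cr3_2]; ring, abs_mul]

theorem pat_2 (x0 x1 x2 x3 : Fin 3 → ℝ) :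
    |det3 (cr3 x0 x1) (cr3 x0 x2) (cr3 x1 x3)| = |det3 x0 x1 x2| * |det3 x0 x1 x3| := by
  rw [show det3 (cr3 x0 x1) (cr3 x0 x2) (cr3 x1 x3) = det3 x0 x1 x2 * (det3 x0 x1 x3) by
    simp only [det3, cr3_0, cr3_1, cr3_2]; ring, abs_mul]

theorem pat_3 (x0 x1 x2 x3 : Fin 3 → ℝ) :
    |det3 (cr3 x0 x1) (cr3 x0 x2) (cr3 x2 x3)| = |det3 x0 x1 x2| * |det3 x0 x2 x3| := by
  rw [show det3 (cr3 x0 x1) (cr3 x0 x2) (cr3 x2 x3) = det3 x0 x1 x2 * (det3 x0 x2 x3) by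
    simp only [det3, cr3_0, cr3_1, cr3_2]; ring, abs_mul]

theorem pat_4 (x0 x1 x2 x3 x4 : Fin 3 → ℝ) :
    |det3 (cr3 x0 x1) (cr3 x0 x2) (cr3 x3 x4)| = |det3 x0 x1 x2| * |det3 x0 x3 x4| := by
  rw [show det3 (cr3 x0 x1) (cr3 x0 x2) (cr3 x3 x4) = det3 x0 x1 x2 * (det3 x0 x3 x4) by
    simp only [det3, cr3_0, cr3_1, cr3_2]; ring, abs_mul]

theorem pat_5 (x0 x1 x2 x3 : Fin 3 → ℝ) :
    |det3 (cr3 x0 x1) (cr3 x0 x3) (cr3 x1 x2)| = |det3 x0 x1 x3| * |det3 x0 x1 x2| := by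
  rw [show det3 (cr3 x0 x1) (cr3 x0 x3) (cr3 x1 x2) = det3 x0 x1 x3 * (det3 x0 x1 x2) by
    simp only [det3, cr3_0, cr3_1, cr3_2]; ring, abs_mul]

theorem pat_6 (x0 x1 x2 x3 : Fin 3 → ℝ) :
    |det3 (cr3 x0 x1) (cr3 x0 x3) (cr3 x2 x3)| = |det3 x0 x1 x3| * |det3 x0 x2 x3| := by
  rw [show det3 (cr3 x0 x1) (cr3 x0 x3) (cr3 x2 x3) = det3 x0 x1 x3 * (det3 x0 x2 x3) by
    simp only [det3, cr3_0, cr3_1, cr3_2]; ring, abs_mul]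

theorem pat_7 (x0 x1 x2 x3 x4 : Fin 3 → ℝ) :
    |det3 (cr3 x0 x1) (cr3 x0 x3) (cr3 x2 x4)| = |det3 x0 x1 x3| * |det3 x0 x2 x4| := by
  rw [show det3 (cr3 x0 x1) (cr3 x0 x3) (cr3 x2 x4) = det3 x0 x1 x3 * (det3 x0 x2 x4) by
    simp only [det3, cr3_0, cr3_1, cr3_2]; ring, abs_mul]

theorem pat_8 (x0 x1 x2 x3 x4 : Fin 3 → ℝ) :
    |det3 (cr3 x0 x1) (cr3 x0 x4) (cr3 x2 x3)| = |det3 x0 x1 x4| * |det3 x0 x2 x3| := by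
  rw [show det3 (cr3 x0 x1) (cr3 x0 x4) (cr3 x2 x3) = det3 x0 x1 x4 * (det3 x0 x2 x3) by
    simp only [det3, cr3_0, cr3_1, cr3_2]; ring, abs_mul]

theorem pat_9 (x0 x1 x2 x3 : Fin 3 → ℝ) : |det3 (cr3 x0 x1) (cr3 x1 x2) (cr3 x1 x3)| = 0 := by
  rw [show det3 (cr3 x0 x1) (cr3 x1 x2) (cr3 x1 x3) = 0 by
    simp only [det3, cr3_0, cr3_1, cr3_2]; ring, abs_zero]

theorem pat_10 (x0 x1 x2 x3 : Fin 3 → ℝ) :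
    |det3 (cr3 x0 x1) (cr3 x1 x2) (cr3 x2 x3)| = |det3 x0 x1 x2| * |det3 x1 x2 x3| := by
  rw [show det3 (cr3 x0 x1) (cr3 x1 x2) (cr3 x2 x3) = det3 x0 x1 x2 * (det3 x1 x2 x3) by
    simp only [det3, cr3_0, cr3_1, cr3_2]; ring, abs_mul]

theorem pat_11 (x0 x1 x2 x3 x4 : Fin 3 → ℝ) :
    |det3 (cr3 x0 x1) (cr3 x1 x2) (cr3 x3 x4)| = |det3 x0 x1 x2| * |det3 x1 x3 x4| := by
  rw [show det3 (cr3 x0 x1) (cr3 x1 x2) (cr3 x3 x4) = det3 x0 x1 x2 * (det3 x1 x3 x4) by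
    simp only [det3, cr3_0, cr3_1, cr3_2]; ring, abs_mul]

theorem pat_12 (x0 x1 x2 x3 : Fin 3 → ℝ) :
    |det3 (cr3 x0 x1) (cr3 x1 x3) (cr3 x2 x3)| = |det3 x0 x1 x3| * |det3 x1 x2 x3| := by
  rw [show det3 (cr3 x0 x1) (cr3 x1 x3) (cr3 x2 x3) = det3 x0 x1 x3 * (det3 x1 x2 x3) by
    simp only [det3, cr3_0, cr3_1, cr3_2]; ring, abs_mul]

theorem pat_13 (x0 x1 x2 x3 x4 : Fin 3 → ℝ) :
    |det3 (cr3 x0 x1) (cr3 x1 x3) (cr3 x2 x4)| = |det3 x0 x1 x3| * |det3 x1 x2 x4| := by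
  rw [show det3 (cr3 x0 x1) (cr3 x1 x3) (cr3 x2 x4) = det3 x0 x1 x3 * (det3 x1 x2 x4) by
    simp only [det3, cr3_0, cr3_1, cr3_2]; ring, abs_mul]

theorem pat_14 (x0 x1 x2 x3 x4 : Fin 3 → ℝ) :
    |det3 (cr3 x0 x1) (cr3 x1 x4) (cr3 x2 x3)| = |det3 x0 x1 x4| * |det3 x1 x2 x3| := by
  rw [show det3 (cr3 x0 x1) (cr3 x1 x4) (cr3 x2 x3) = det3 x0 x1 x4 * (det3 x1 x2 x3) by
    simp only [det3, cr3_0, cr3_1, cr3_2]; ring, abs_mul]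

theorem pat_15 (x0 x1 x2 x3 x4 : Fin 3 → ℝ) :
    |det3 (cr3 x0 x1) (cr3 x2 x3) (cr3 x2 x4)| = |det3 x2 x3 x4| * |det3 x0 x1 x2| := by
  rw [show det3 (cr3 x0 x1) (cr3 x2 x3) (cr3 x2 x4) = det3 x2 x3 x4 * (det3 x0 x1 x2) by
    simp only [det3, cr3_0, cr3_1, cr3_2]; ring, abs_mul]

theorem pat_16 (x0 x1 x2 x3 x4 : Fin 3 → ℝ) :
    |det3 (cr3 x0 x1) (cr3 x2 x3) (cr3 x3 x4)| = |det3 x2 x3 x4| * |det3 x0 x1 x3| := by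
  rw [show det3 (cr3 x0 x1) (cr3 x2 x3) (cr3 x3 x4) = det3 x2 x3 x4 * (det3 x0 x1 x3) by
    simp only [det3, cr3_0, cr3_1, cr3_2]; ring, abs_mul]

theorem pat_17 (x0 x1 x2 x3 x4 : Fin 3 → ℝ) :
    |det3 (cr3 x0 x1) (cr3 x2 x4) (cr3 x3 x4)| = |det3 x2 x3 x4| * |det3 x0 x1 x4| := by
  rw [show det3 (cr3 x0 x1) (cr3 x2 x4) (cr3 x3 x4) = det3 x2 x3 x4 * (det3 x0 x1 x4) by
    simp only [det3, cr3_0, cr3_1, cr3_2]; ring, abs_mul]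

theorem pat_18 (x0 x1 x2 x3 : Fin 3 → ℝ) :
    |det3 (cr3 x0 x2) (cr3 x0 x3) (cr3 x1 x2)| = |det3 x0 x2 x3| * |det3 x0 x1 x2| := by
  rw [show det3 (cr3 x0 x2) (cr3 x0 x3) (cr3 x1 x2) = det3 x0 x2 x3 * (det3 x0 x1 x2) by
    simp only [det3, cr3_0, cr3_1, cr3_2]; ring, abs_mul]

theorem pat_19 (x0 x1 x2 x3 : Fin 3 → ℝ) :
    |det3 (cr3 x0 x2) (cr3 x0 x3) (cr3 x1 x3)| = |det3 x0 x2 x3| * |det3 x0 x1 x3| := by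
  rw [show det3 (cr3 x0 x2) (cr3 x0 x3) (cr3 x1 x3) = det3 x0 x2 x3 * (det3 x0 x1 x3) by
    simp only [det3, cr3_0, cr3_1, cr3_2]; ring, abs_mul]

theorem pat_20 (x0 x1 x2 x3 x4 : Fin 3 → ℝ) :
    |det3 (cr3 x0 x2) (cr3 x0 x3) (cr3 x1 x4)| = |det3 x0 x2 x3| * |det3 x0 x1 x4| := by
  rw [show det3 (cr3 x0 x2) (cr3 x0 x3) (cr3 x1 x4) = det3 x0 x2 x3 * (det3 x0 x1 x4) by
    simp only [det3, cr3_0, cr3_1, cr3_2]; ring, abs_mul]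

theorem pat_21 (x0 x1 x2 x3 x4 : Fin 3 → ℝ) :
    |det3 (cr3 x0 x2) (cr3 x0 x4) (cr3 x1 x3)| = |det3 x0 x2 x4| * |det3 x0 x1 x3| := by
  rw [show det3 (cr3 x0 x2) (cr3 x0 x4) (cr3 x1 x3) = det3 x0 x2 x4 * (det3 x0 x1 x3) by
    simp only [det3, cr3_0, cr3_1, cr3_2]; ring, abs_mul]

theorem pat_22 (x0 x1 x2 x3 : Fin 3 → ℝ) :
    |det3 (cr3 x0 x2) (cr3 x1 x2) (cr3 x1 x3)| = |det3 x0 x1 x2| * |det3 x1 x2 x3| := by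
  rw [show det3 (cr3 x0 x2) (cr3 x1 x2) (cr3 x1 x3) = -(det3 x0 x1 x2 * (det3 x1 x2 x3)) by
    simp only [det3, cr3_0, cr3_1, cr3_2]; ring, abs_neg, abs_mul]

theorem pat_23 (x0 x1 x2 x3 : Fin 3 → ℝ) : |det3 (cr3 x0 x2) (cr3 x1 x2) (cr3 x2 x3)| = 0 := by
  rw [show det3 (cr3 x0 x2) (cr3 x1 x2) (cr3 x2 x3) = 0 by
    simp only [det3, cr3_0, cr3_1, cr3_2]; ring, abs_zero]

theorem pat_24 (x0 x1 x2 x3 x4 : Fin 3 → ℝ) :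
    |det3 (cr3 x0 x2) (cr3 x1 x2) (cr3 x3 x4)| = |det3 x0 x1 x2| * |det3 x2 x3 x4| := by
  rw [show det3 (cr3 x0 x2) (cr3 x1 x2) (cr3 x3 x4) = det3 x0 x1 x2 * (det3 x2 x3 x4) by
    simp only [det3, cr3_0, cr3_1, cr3_2]; ring, abs_mul]

theorem pat_25 (x0 x1 x2 x3 x4 : Fin 3 → ℝ) :
    |det3 (cr3 x0 x2) (cr3 x1 x3) (cr3 x1 x4)| = |det3 x1 x3 x4| * |det3 x0 x1 x2| := by
  rw [show det3 (cr3 x0 x2) (cr3 x1 x3) (cr3 x1 x4) = -(det3 x1 x3 x4 * (det3 x0 x1 x2)) by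
    simp only [det3, cr3_0, cr3_1, cr3_2]; ring, abs_neg, abs_mul]

theorem pat_26 (x0 x1 x2 x3 : Fin 3 → ℝ) :
    |det3 (cr3 x0 x2) (cr3 x1 x3) (cr3 x2 x3)| = |det3 x0 x2 x3| * |det3 x1 x2 x3| := by
  rw [show det3 (cr3 x0 x2) (cr3 x1 x3) (cr3 x2 x3) = det3 x0 x2 x3 * (det3 x1 x2 x3) by
    simp only [det3, cr3_0, cr3_1, cr3_2]; ring, abs_mul]

theorem pat_27 (x0 x1 x2 x3 x4 : Fin 3 → ℝ) :
    |det3 (cr3 x0 x2) (cr3 x1 x3) (cr3 x2 x4)| = |det3 x0 x2 x4| * |det3 x1 x2 x3| := by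
  rw [show det3 (cr3 x0 x2) (cr3 x1 x3) (cr3 x2 x4) = det3 x0 x2 x4 * (det3 x1 x2 x3) by
    simp only [det3, cr3_0, cr3_1, cr3_2]; ring, abs_mul]

theorem pat_28 (x0 x1 x2 x3 x4 : Fin 3 → ℝ) :
    |det3 (cr3 x0 x2) (cr3 x1 x3) (cr3 x3 x4)| = |det3 x1 x3 x4| * |det3 x0 x2 x3| := by
  rw [show det3 (cr3 x0 x2) (cr3 x1 x3) (cr3 x3 x4) = det3 x1 x3 x4 * (det3 x0 x2 x3) by
    simp only [det3, cr3_0, cr3_1, cr3_2]; ring, abs_mul]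

theorem pat_29 (x0 x1 x2 x3 x4 : Fin 3 → ℝ) :
    |det3 (cr3 x0 x2) (cr3 x1 x4) (cr3 x2 x3)| = |det3 x0 x2 x3| * |det3 x1 x2 x4| := by
  rw [show det3 (cr3 x0 x2) (cr3 x1 x4) (cr3 x2 x3) = det3 x0 x2 x3 * (det3 x1 x2 x4) by
    simp only [det3, cr3_0, cr3_1, cr3_2]; ring, abs_mul]

theorem pat_30 (x0 x1 x2 x3 x4 : Fin 3 → ℝ) :
    |det3 (cr3 x0 x2) (cr3 x1 x4) (cr3 x3 x4)| = |det3 x1 x3 x4| * |det3 x0 x2 x4| := by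
  rw [show det3 (cr3 x0 x2) (cr3 x1 x4) (cr3 x3 x4) = det3 x1 x3 x4 * (det3 x0 x2 x4) by
    simp only [det3, cr3_0, cr3_1, cr3_2]; ring, abs_mul]

theorem pat_31 (x0 x1 x2 x3 x4 : Fin 3 → ℝ) :
    |det3 (cr3 x0 x3) (cr3 x0 x4) (cr3 x1 x2)| = |det3 x0 x3 x4| * |det3 x0 x1 x2| := by
  rw [show det3 (cr3 x0 x3) (cr3 x0 x4) (cr3 x1 x2) = det3 x0 x3 x4 * (det3 x0 x1 x2) by
    simp only [det3, cr3_0, cr3_1, cr3_2]; ring, abs_mul]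

theorem pat_32 (x0 x1 x2 x3 : Fin 3 → ℝ) :
    |det3 (cr3 x0 x3) (cr3 x1 x2) (cr3 x1 x3)| = |det3 x0 x1 x3| * |det3 x1 x2 x3| := by
  rw [show det3 (cr3 x0 x3) (cr3 x1 x2) (cr3 x1 x3) = -(det3 x0 x1 x3 * (det3 x1 x2 x3)) by
    simp only [det3, cr3_0, cr3_1, cr3_2]; ring, abs_neg, abs_mul]

theorem pat_33 (x0 x1 x2 x3 x4 : Fin 3 → ℝ) :
    |det3 (cr3 x0 x3) (cr3 x1 x2) (cr3 x1 x4)| = |det3 x1 x2 x4| * |det3 x0 x1 x3| := by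
  rw [show det3 (cr3 x0 x3) (cr3 x1 x2) (cr3 x1 x4) = -(det3 x1 x2 x4 * (det3 x0 x1 x3)) by
    simp only [det3, cr3_0, cr3_1, cr3_2]; ring, abs_neg, abs_mul]

theorem pat_34 (x0 x1 x2 x3 : Fin 3 → ℝ) :
    |det3 (cr3 x0 x3) (cr3 x1 x2) (cr3 x2 x3)| = |det3 x0 x2 x3| * |det3 x1 x2 x3| := by
  rw [show det3 (cr3 x0 x3) (cr3 x1 x2) (cr3 x2 x3) = -(det3 x0 x2 x3 * (det3 x1 x2 x3)) by
    simp only [det3, cr3_0, cr3_1, cr3_2]; ring, abs_neg, abs_mul]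

theorem pat_35 (x0 x1 x2 x3 x4 : Fin 3 → ℝ) :
    |det3 (cr3 x0 x3) (cr3 x1 x2) (cr3 x2 x4)| = |det3 x1 x2 x4| * |det3 x0 x2 x3| := by
  rw [show det3 (cr3 x0 x3) (cr3 x1 x2) (cr3 x2 x4) = -(det3 x1 x2 x4 * (det3 x0 x2 x3)) by
    simp only [det3, cr3_0, cr3_1, cr3_2]; ring, abs_neg, abs_mul]

theorem pat_36 (x0 x1 x2 x3 x4 : Fin 3 → ℝ) :
    |det3 (cr3 x0 x3) (cr3 x1 x2) (cr3 x3 x4)| = |det3 x0 x3 x4| * |det3 x1 x2 x3| := by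
  rw [show det3 (cr3 x0 x3) (cr3 x1 x2) (cr3 x3 x4) = -(det3 x0 x3 x4 * (det3 x1 x2 x3)) by
    simp only [det3, cr3_0, cr3_1, cr3_2]; ring, abs_neg, abs_mul]

theorem pat_37 (x0 x1 x2 x3 : Fin 3 → ℝ) : |det3 (cr3 x0 x3) (cr3 x1 x3) (cr3 x2 x3)| = 0 := by
  rw [show det3 (cr3 x0 x3) (cr3 x1 x3) (cr3 x2 x3) = 0 by
    simp only [det3, cr3_0, cr3_1, cr3_2]; ring, abs_zero]

theorem pat_38 (x0 x1 x2 x3 x4 : Fin 3 → ℝ) :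
    |det3 (cr3 x0 x3) (cr3 x1 x3) (cr3 x2 x4)| = |det3 x0 x1 x3| * |det3 x2 x3 x4| := by
  rw [show det3 (cr3 x0 x3) (cr3 x1 x3) (cr3 x2 x4) = -(det3 x0 x1 x3 * (det3 x2 x3 x4)) by
    simp only [det3, cr3_0, cr3_1, cr3_2]; ring, abs_neg, abs_mul]

theorem pat_39 (x0 x1 x2 x3 x4 : Fin 3 → ℝ) :
    |det3 (cr3 x0 x3) (cr3 x1 x4) (cr3 x2 x3)| = |det3 x0 x2 x3| * |det3 x1 x3 x4| := by
  rw [show det3 (cr3 x0 x3) (cr3 x1 x4) (cr3 x2 x3) = det3 x0 x2 x3 * (det3 x1 x3 x4) by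
    simp only [det3, cr3_0, cr3_1, cr3_2]; ring, abs_mul]

theorem pat_40 (x0 x1 x2 x3 x4 : Fin 3 → ℝ) :
    |det3 (cr3 x0 x3) (cr3 x1 x4) (cr3 x2 x4)| = |det3 x1 x2 x4| * |det3 x0 x3 x4| := by
  rw [show det3 (cr3 x0 x3) (cr3 x1 x4) (cr3 x2 x4) = det3 x1 x2 x4 * (det3 x0 x3 x4) by
    simp only [det3, cr3_0, cr3_1, cr3_2]; ring, abs_mul]

theorem pat_41 (x0 x1 x2 x3 x4 : Fin 3 → ℝ) :
    |det3 (cr3 x0 x4) (cr3 x1 x2) (cr3 x1 x3)| = |det3 x1 x2 x3| * |det3 x0 x1 x4| := by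
  rw [show det3 (cr3 x0 x4) (cr3 x1 x2) (cr3 x1 x3) = -(det3 x1 x2 x3 * (det3 x0 x1 x4)) by
    simp only [det3, cr3_0, cr3_1, cr3_2]; ring, abs_neg, abs_mul]

theorem pat_42 (x0 x1 x2 x3 x4 : Fin 3 → ℝ) :
    |det3 (cr3 x0 x4) (cr3 x1 x2) (cr3 x2 x3)| = |det3 x1 x2 x3| * |det3 x0 x2 x4| := by
  rw [show det3 (cr3 x0 x4) (cr3 x1 x2) (cr3 x2 x3) = -(det3 x1 x2 x3 * (det3 x0 x2 x4)) by
    simp only [det3, cr3_0, cr3_1, cr3_2]; ring, abs_neg, abs_mul]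

theorem pat_43 (x0 x1 x2 x3 x4 : Fin 3 → ℝ) :
    |det3 (cr3 x0 x4) (cr3 x1 x2) (cr3 x3 x4)| = |det3 x0 x3 x4| * |det3 x1 x2 x4| := by
  rw [show det3 (cr3 x0 x4) (cr3 x1 x2) (cr3 x3 x4) = -(det3 x0 x3 x4 * (det3 x1 x2 x4)) by
    simp only [det3, cr3_0, cr3_1, cr3_2]; ring, abs_neg, abs_mul]

theorem pat_44 (x0 x1 x2 x3 x4 : Fin 3 → ℝ) :
    |det3 (cr3 x0 x4) (cr3 x1 x3) (cr3 x2 x3)| = |det3 x1 x2 x3| * |det3 x0 x3 x4| := by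
  rw [show det3 (cr3 x0 x4) (cr3 x1 x3) (cr3 x2 x3) = -(det3 x1 x2 x3 * (det3 x0 x3 x4)) by
    simp only [det3, cr3_0, cr3_1, cr3_2]; ring, abs_neg, abs_mul]

theorem pat_45 (x0 x1 x2 x3 x4 : Fin 3 → ℝ) :
    |det3 (cr3 x0 x4) (cr3 x1 x3) (cr3 x2 x4)| = |det3 x0 x2 x4| * |det3 x1 x3 x4| := by
  rw [show det3 (cr3 x0 x4) (cr3 x1 x3) (cr3 x2 x4) = -(det3 x0 x2 x4 * (det3 x1 x3 x4)) by
    simp only [det3, cr3_0, cr3_1, cr3_2]; ring, abs_neg, abs_mul]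

theorem pat_46 (x0 x1 x2 x3 x4 : Fin 3 → ℝ) :
    |det3 (cr3 x0 x4) (cr3 x1 x4) (cr3 x2 x3)| = |det3 x0 x1 x4| * |det3 x2 x3 x4| := by
  rw [show det3 (cr3 x0 x4) (cr3 x1 x4) (cr3 x2 x3) = det3 x0 x1 x4 * (det3 x2 x3 x4) by
    simp only [det3, cr3_0, cr3_1, cr3_2]; ring, abs_mul]

end Vale.Agent.H64
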